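import Crest.Statements.S0170
import Crest.Agent.Lib.BoxFlowScale
import Crest.Agent.Lib.BoxFlowODE

set_option autoImplicit false
open scoped ContDiff
open Crest.AnalysisR.BoxFlow
open Crest Crest.AnalysisR

namespace Crest.Agent.S0170

open Crest.Agent.BoxFlowField Crest.Agent.BoxFlowPlan Crest.Agent.BoxFlowScale Crest.Agent.BoxFlowODE

theorem sep_of_disjoint {c c' w w' : Fin 3 → ℚ} (hw : ∀ l, 0 ≤ w l) (hw' : ∀ l, 0 ≤ w' l)
    (hd : Disjoint (box c w) (box c' w')) : ∃ l, w l + w' l < |c l - c' l| := by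
  by_contra hcon
  push Not at hcon
  let x : Fin 3 → ℝ := fun l => max ((c l - w l : ℚ) : ℝ) ((c' l - w' l : ℚ) : ℝ)
  have key : ∀ l, ((c l - w l : ℚ) : ℝ) ≤ x l ∧ ((c' l - w' l : ℚ) : ℝ) ≤ x l ∧
      x l ≤ ((c l + w l : ℚ) : ℝ) ∧ x l ≤ ((c' l + w' l : ℚ) : ℝ) := by
    intro l
    have h1 := abs_le.1 (hcon l)
    have hwl := hw l
    have hwl' := hw' l
    refine ⟨le_max_left _ _, le_max_right _ _, max_le ?_ ?_, max_le ?_ ?_⟩ <;>
      (rw [Rat.cast_le]; linarith [h1.1, h1.2])
  have hx1 : x ∈ box c w := by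
    intro l
    obtain ⟨h1, _, h3, _⟩ := key l
    push_cast at h1 h3
    rw [abs_le]
    constructor <;> linarith
  have hx2 : x ∈ box c' w' := by
    intro l
    obtain ⟨_, h2, _, h4⟩ := key l
    push_cast at h2 h4
    rw [abs_le]
    constructor <;> linarith
  exact Set.disjoint_left.1 hd hx1 hx2

/-- Finitely many pairwise disjoint rational boxes in 3-space are carried onto disjoint target boxes, each a translated determinant-one positive diagonal rescaling of its source, by the time-one flow of a smooth, compactly supported, effective, divergence-free velocity field active only in [1/4,3/4]. The flow equals the prescribed affine map on a neighbourhood of each source box. Effective: computably approximable mixed derivatives at rational points and computable global derivative bounds. -/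
theorem result
    (n : ℕ) (a b h k : Fin n → Fin 3 → ℚ)
    (hh : ∀ i j, 0 < h i j) (hk : ∀ i j, 0 < k i j)
    (ha : Pairwise fun i i' => Disjoint (box (a i) (h i)) (box (a i') (h i')))
    (hb : Pairwise fun i i' => Disjoint (box (b i) (k i)) (box (b i') (k i')))
    (hvol : ∀ i, ∏ j : Fin 3, k i j / h i j = 1) :
    ∃ (U : Field) (Φ : ℝ → (Fin 3 → ℝ) → (Fin 3 → ℝ)),
      ContDiff ℝ ∞ U ∧ HasCompactSupport U ∧ Effective U ∧
      (∀ p : ℝ × (Fin 3 → ℝ), p.1 ∉ Set.Icc (1 / 4 : ℝ) (3 / 4) → U p = 0) ∧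
      (∀ p : ℝ × (Fin 3 → ℝ), spaceDiv U p = 0) ∧ IsFlow U Φ ∧
      ∀ i : Fin n, ∃ O : Set (Fin 3 → ℝ), IsOpen O ∧ box (a i) (h i) ⊆ O ∧
        ∀ x ∈ O, Φ 1 x = fun j => (b i j : ℝ) + ((k i j / h i j : ℚ) : ℝ) * (x j - (a i j : ℝ)) := by
  classical
  set r : Fin n → Fin 3 → ℚ := fun i l => k i l / h i l with hr
  have hrpos : ∀ i l, 0 < r i l := fun i l => div_pos (hk i l) (hh i l)
  have hprod : ∀ i, r i 0 * r i 1 * r i 2 = 1 := by
    intro i
    have := hvol i
    rwa [Fin.prod_univ_three] at this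
  have hrh : ∀ i l, r i l * h i l = k i l := fun i l => by
    simp only [hr]
    exact div_mul_cancel₀ _ (hh i l).ne'
  -- the enlargement parameter
  obtain ⟨δ, hδ, hδ'⟩ := exists_margin (κ := Fin n × Fin n)
    (fun p δ => p.1 ≠ p.2 → (∃ l, (h p.1 l + δ) + (h p.2 l + δ) < |a p.1 l - a p.2 l|) ∧
      (∃ l, r p.1 l * (h p.1 l + δ) + r p.2 l * (h p.2 l + δ) < |b p.1 l - b p.2 l|)) (by
    rintro ⟨i, i'⟩
    by_cases hii : i = i'
    · exact ⟨1, one_pos, fun _ _ _ hne => absurd hii hne⟩
    · obtain ⟨l₁, hl₁⟩ := sep_of_disjoint (fun l => (hh i l).le) (fun l => (hh i' l).le) (ha hii)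
      obtain ⟨l₂, hl₂⟩ := sep_of_disjoint (fun l => (hk i l).le) (fun l => (hk i' l).le) (hb hii)
      have hrr : 0 < r i l₂ + r i' l₂ := add_pos (hrpos i l₂) (hrpos i' l₂)
      set g₁ := |a i l₁ - a i' l₁| - (h i l₁ + h i' l₁) with hg₁
      set g₂ := |b i l₂ - b i' l₂| - (k i l₂ + k i' l₂) with hg₂
      have hg₁0 : 0 < g₁ := by rw [hg₁]; linarith
      have hg₂0 : 0 < g₂ := by rw [hg₂]; linarith
      refine ⟨min (g₁ / 4) (g₂ / (2 * (r i l₂ + r i' l₂))), lt_min (by positivity) (by positivity), ?_⟩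
      intro μ hμ hμle _
      refine ⟨⟨l₁, ?_⟩, ⟨l₂, ?_⟩⟩
      · have := hμle.trans (min_le_left _ _)
        simp only
        linarith
      · have h1 := hμle.trans (min_le_right _ _)
        rw [le_div_iff₀ (by positivity)] at h1
        simp only
        have e1 := hrh i l₂
        have e2 := hrh i' l₂
        nlinarith)
  set us : Fin n → Fin 3 → ℚ := fun i l => h i l + δ with hus
  set ut : Fin n → Fin 3 → ℚ := fun i l => r i l * us i l with hut
  have hus0 : ∀ i l, 0 < us i l := fun i l => add_pos (hh i l) hδ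
  have hut0 : ∀ i l, 0 < ut i l := fun i l => mul_pos (hrpos i l) (hus0 i l)
  have hsep₁ : ∀ i j, i ≠ j → ∃ l, us i l + us j l < |a i l - a j l| := fun i j hij =>
    (hδ' (i, j) hij).1
  have hsep₂ : ∀ i j, i ≠ j → ∃ l, ut i l + ut j l < |b i l - b j l| := fun i j hij =>
    (hδ' (i, j) hij).2
  -- the constants
  set B : Fin n → ℚ := fun i => ∑ l, us i l with hB
  have hB0 : ∀ i, 0 ≤ B i := fun i => Finset.sum_nonneg fun l _ => (hus0 i l).le
  have hBle : ∀ i l, us i l ≤ B i := fun i l =>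
    Finset.single_le_sum (f := fun l => us i l) (fun l _ => (hus0 i l).le) (Finset.mem_univ l)
  have hgr : ∀ ρ : ℚ, 0 < gr ρ := fun ρ => lt_of_lt_of_le one_pos (one_le_gr ρ)
  set T : Fin n → ℚ := fun i => gr (r i 0 * r i 1) * (gr (r i 0) * B i) + B i + ∑ l, ut i l with hT
  have hT0 : ∀ i, 0 ≤ T i := by
    intro i
    have h1 := hgr (r i 0 * r i 1)
    have h2 := hgr (r i 0)
    have h3 := hB0 i
    have h4 : 0 ≤ ∑ l, ut i l := Finset.sum_nonneg fun l _ => (hut0 i l).le
    simp only [hT]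
    positivity
  set W : ℚ := ∑ i, T i + 1 with hWdef
  have hTW : ∀ i, T i ≤ W := by
    intro i
    have := Finset.single_le_sum (f := T) (fun i _ => hT0 i) (Finset.mem_univ i)
    rw [hWdef]
    linarith
  have hW0 : 0 ≤ W := by
    have : 0 ≤ ∑ i, T i := Finset.sum_nonneg fun i _ => hT0 i
    rw [hWdef]
    linarith
  have hsumut : ∀ i, 0 ≤ ∑ l, ut i l := fun i => Finset.sum_nonneg fun l _ => (hut0 i l).le
  have hscaleW : ∀ i, gr (r i 0 * r i 1) * (gr (r i 0) * B i) ≤ W := by
    intro i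
    have h1 := hTW i
    have h2 := hB0 i
    have h3 := hsumut i
    simp only [hT] at h1
    linarith
  have hprodnn : ∀ i, 0 ≤ gr (r i 0 * r i 1) * (gr (r i 0) * B i) := fun i =>
    mul_nonneg (hgr _).le (mul_nonneg (hgr _).le (hB0 i))
  have husW : ∀ i l, us i l ≤ W := by
    intro i l
    have h1 := hTW i
    have h2 := hBle i l
    have h3 := hsumut i
    have h4 := hprodnn i
    simp only [hT] at h1
    linarith
  have hutW : ∀ i l, ut i l ≤ W := by
    intro i l
    have h1 := hTW i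
    have h2 : ut i l ≤ ∑ l, ut i l :=
      Finset.single_le_sum (f := fun l => ut i l) (fun l _ => (hut0 i l).le) (Finset.mem_univ l)
    have h3 := hB0 i
    have h4 := hprodnn i
    simp only [hT] at h1
    linarith
  set S : Fin n → ℚ := fun i => ∑ l, (|a i l| + us i l + (|b i l| + ut i l)) with hS
  have hSl : ∀ i l, |a i l| + us i l + (|b i l| + ut i l) ≤ S i := fun i l =>
    Finset.single_le_sum (f := fun l => |a i l| + us i l + (|b i l| + ut i l))
      (fun l _ => by have := hus0 i l; have := hut0 i l; positivity) (Finset.mem_univ l)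
  have hS0 : ∀ i, 0 ≤ S i := fun i => Finset.sum_nonneg fun l _ => by
    have := hus0 i l; have := hut0 i l; positivity
  set R : ℚ := ∑ i, S i with hRdef
  have hSR : ∀ i, S i ≤ R := fun i =>
    Finset.single_le_sum (f := S) (fun i _ => hS0 i) (Finset.mem_univ i)
  have hR₁ : ∀ i l, |a i l| + us i l ≤ R := by
    intro i l
    have h1 := hSl i l
    have h2 := hSR i
    have h3 := hut0 i l
    have h4 := abs_nonneg (b i l)
    linarith
  have hR₂ : ∀ i l, |b i l| + ut i l ≤ R := by
    intro i l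
    have h1 := hSl i l
    have h2 := hSR i
    have h3 := hus0 i l
    have h4 := abs_nonneg (a i l)
    linarith
  set Y : Fin n → ℚ := fun i => ((i : ℕ) : ℚ) * (2 * W + 1) with hY
  have hYsep : ∀ i j : Fin n, i ≠ j → 2 * W + 1 ≤ |Y i - Y j| := by
    intro i j hij
    have hne : (i : ℤ) - (j : ℤ) ≠ 0 := by
      intro h0
      apply hij
      ext
      omega
    have h1 : (1:ℤ) ≤ |(i : ℤ) - (j : ℤ)| := Int.one_le_abs hne
    have h2 : (1:ℚ) ≤ |((i : ℕ) : ℚ) - ((j : ℕ) : ℚ)| := by
      have h3 : ((1:ℤ):ℚ) ≤ ((|(i : ℤ) - (j : ℤ)| : ℤ) : ℚ) := by exact_mod_cast h1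
      push_cast at h3
      exact h3
    simp only [hY]
    rw [← sub_mul, abs_mul, abs_of_nonneg (by linarith : (0:ℚ) ≤ 2 * W + 1)]
    nlinarith
  -- the three phases
  set P := park R W Y with hP
  have e₁ : BiT us a P := extract_univ a us R W Y (fun j l => (hus0 j l).le) husW hR₁ hsep₁ hYsep
  have e₂ : BiT ut b P := extract_univ b ut R W Y (fun j l => (hut0 j l).le) hutW hR₂ hsep₂ hYsep
  have hlane : ∀ i j, i ≠ j → 2 * W + 1 ≤ |P i 1 - P j 1| := by
    intro i j hij
    have h1 := hYsep i j hij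
    simpa [hP, park] using h1
  have sc : Realizes (fun j => box (P j) (us j)) (fun j => scale3 (r j) (P j)) :=
    scale_all P W us ut r B hW0 hrpos hprod (fun _ _ => rfl) hB0 hBle hscaleW husW hutW hlane
  have total := (e₁.1.trans sc (fun i x hx => tr_mem_box hx)).trans e₂.2
    (fun i x hx => scale3_mem_box (hrpos i) (fun _ => rfl) (tr_mem_box hx))
  obtain ⟨U, hU, hcar⟩ := total (1/4) (3/4) (by norm_num)
  have e14 : (((1/4 : ℚ)) : ℝ) = 1/4 := by norm_num
  have e34 : (((3/4 : ℚ)) : ℝ) = 3/4 := by norm_num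
  rw [e14, e34] at hU
  have hU' : ∀ p : ST, p.1 ∉ Set.Ioo (1/4 : ℝ) (3/4) → U p = 0 := hU.time
  obtain ⟨Φ, hΦ⟩ := exists_flow hU.smooth hU.compact hU'
  refine ⟨U, Φ, hU.smooth, hU.compact, hU.eff, ?_, hU.div, hΦ, ?_⟩
  · intro p hp
    exact hU' p (fun h' => hp ⟨h'.1.le, h'.2.le⟩)
  · intro i
    refine ⟨{x | ∀ l, |x l - (a i l : ℝ)| < (h i l : ℝ) + δ}, ?_, ?_, ?_⟩
    · simp only [Set.ofPred_forall]
      refine isOpen_iInter_of_finite fun l => ?_
      exact isOpen_lt (by fun_prop) continuous_const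
    · intro x hx l
      have h1 := hx l
      have h2 : (0:ℝ) < δ := by exact_mod_cast hδ
      linarith
    · intro x hx
      have hxbox : x ∈ box (a i) (us i) := by
        intro l
        have h1 := hx l
        simp only [hus]
        push_cast
        exact h1.le
      have hc := hcar i x hxbox
      rw [e14, e34] at hc
      have := flow_eq_of_carries hU.smooth hU.compact hΦ (by norm_num) (by norm_num) hc
      rw [this]
      funext l
      simp only [tr, scale3, Pi.sub_apply, hr]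
      push_cast
      ring

end Crest.Agent.S0170
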